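import Vale.Agent.P065.UB.Defs

/-!
# P065, upper bound, line P (polynomial spread): literal Props (helper728)

Proof text: P065 note 18511 (II), steps 0-9.  `K` tiny loss, then
`K ^ c ≤ 1 / kp ≤ Kp`, `Kp ^ c ≤ 1 / ks ≤ Kpp`, `Kpp ^ c ≤ L`, `L ^ c ≤ lam`, `lam ^ 5 ≤ N`.

Chain: `StP0` gives `NWin`, `StS35` gives `NW2`, `StS67` gives `NW3`, `StS8` gives `NW4`,
`StS9` gives `Struct`, `StP2` gives `False`.  New front lemma: `StStrips`.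
-/

set_option autoImplicit false

namespace Vale.Agent.P065.UB.P

open Finset

/-- **STRIPS**: all slopes of `I` in `[m, m + θ]`, `Q` of `x`-diameter at most `1`, strips of slope
`m` and height `h ≥ θ`: the edges inside `Q` cross the walls `ht m = j h` at most
`2 (#Tch + #EdBd)` times in all (a piece of a token rises by at most `θ ≤ h`). -/
def StStrips : Prop :=
  ∀ (P : Finset Pt) (k : ℕ) (Q : Finset Pt) (I : Set ℝ) (m θ h : ℝ), Good P → Q ⊆ P →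
    I.OrdConnected → (∀ s ∈ I, m ≤ s ∧ s ≤ m + θ) → (∀ p ∈ Q, ∀ q ∈ Q, p.1 ≤ q.1 + 1) →
    θ ≤ h → 0 < h →
    ∑ e ∈ EdIn P k Q I, (⌊ht m e.2 / h⌋ - ⌊ht m e.1 / h⌋) ≤
      2 * ((#(Tch P k Q I) : ℤ) + #(EdBd P k Q I))

/-- the hierarchy of losses -/
structure Hier (c : ℕ) (K kp Kp ks Kpp L lam N : ℝ) : Prop where
  hK : 2 ≤ K
  kp0 : 0 < kp
  kp1 : K ^ c * kp ≤ 1
  Kp1 : 1 ≤ kp * Kp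
  ks0 : 0 < ks
  ks1 : Kp ^ c * ks ≤ 1
  Kpp1 : 1 ≤ ks * Kpp
  hL : Kpp ^ c ≤ L
  hlam : L ^ c ≤ lam
  hN : lam ^ 5 ≤ N

/-- the edges of the window `w` -/
noncomputable def EW (P : Finset Pt) (k : ℕ) (Q : Finset Pt) (a b : ℕ → ℝ) (w : ℕ) :
    Finset (Pt × Pt) := EdIn P k Q (Set.Icc (a w) (b w))

open Classical in
/-- the edges of the window `w` with both ends in `T w` -/
noncomputable def ET (P : Finset Pt) (k : ℕ) (Q : Finset Pt) (a b : ℕ → ℝ) (T : ℕ → Finset Pt)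
    (w : ℕ) : Finset (Pt × Pt) := {e ∈ EW P k Q a b w | e.1 ∈ T w ∧ e.2 ∈ T w}

open Classical in
/-- **NWin** normalised windows (after steps 0, 1, 2) -/
structure NWin (K kp Kp ks Kpp lam N del : ℝ) (P : Finset Pt) (k : ℕ) (Q : Finset Pt)
    (W : Finset ℕ) (a b : ℕ → ℝ) : Prop where
  good : Good P
  sub : Q ⊆ P
  box : ∀ p ∈ Q, 0 ≤ p.1 ∧ p.1 ≤ 1
  del0 : 0 < del
  len : ∀ w ∈ W, del ≤ b w - a w ∧ b w - a w ≤ 2 * del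
  unit : ∀ w ∈ W, 0 ≤ a w ∧ b w ≤ 1
  disj : ∀ w ∈ W, ∀ w' ∈ W, w ≠ w' → b w < a w' ∨ b w' < a w
  cardQ : (#Q : ℝ) ≤ N
  cardW : (#W : ℝ) ≤ K * lam ^ 2
  cardW' : lam ^ 2 ≤ K * #W
  tch : ∀ w ∈ W, lam * #(Tch P k Q (Set.Icc (a w) (b w))) ≤ K * N
  bd : ∀ w ∈ W, lam * #(EdBd P k Q (Set.Icc (a w) (b w))) ≤ K * N
  ed : ∀ w ∈ W, (N / lam) ^ (4 / 3 : ℝ) ≤ K * #(EW P k Q a b w)
  glob : (#(EdBd P k Q Set.univ) : ℝ) ≤ K * (lam * N)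
  ncT : ∀ x : ℝ, (#{w ∈ W | x ≤ a w ∧ a w ≤ x + 1 / Kpp} : ℝ) ≤ ks * lam ^ 2
  ncU : ∀ x : ℝ, ∑ w ∈ W, (#{e ∈ EW P k Q a b w | x ≤ e.1.1 ∧ e.1.1 ≤ x + 1 / Kp} : ℝ) ≤
    kp * (lam ^ 2 * (N / lam) ^ (4 / 3 : ℝ))

/-- **StP0** (steps 0, 1, 2): windows, popular length, time and space normalisation, for point sets
with integer coordinates at most `n ^ A`. -/
def StP0 : Prop :=
  ∀ A : ℕ, ∃ q : ℕ, ∀ c : ℕ, ∃ ε : ℝ, 0 < ε ∧ ∃ n₀ : ℕ, ∀ (P : Finset Pt) (k : ℕ), Good P →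
    (∀ p ∈ P, ∃ x y : ℤ, p = ((x : ℝ), (y : ℝ)) ∧ |x| ≤ (#P : ℤ) ^ A ∧ |y| ≤ (#P : ℤ) ^ A) →
    n₀ ≤ #P → (#P : ℝ) ^ (4 / 3 - ε) ≤ #(Ed P k) →
    ∃ (K kp Kp ks Kpp L lam N del : ℝ) (P' Q : Finset Pt) (W : Finset ℕ) (a b : ℕ → ℝ),
      Hier c K kp Kp ks Kpp L lam N ∧ (#P : ℝ) ≤ lam ^ q ∧ 1 ≤ del * lam ^ q ∧
      (c : ℝ) ≤ lam ∧ Real.log N ≤ K ∧
      NWin K kp Kp ks Kpp lam N del P' k Q W a b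

open Classical in
/-- **NW2** after steps 3, 4, 5: tubes `be w ≤ ht (a w) ≤ be w + 2 del`, sets `T w` of touched
points of the tube, everything spread in `x` at the scale `1 / Kp`. -/
structure NW2 (K k3 Kp ks Kpp lam N del : ℝ) (P : Finset Pt) (k : ℕ) (Q : Finset Pt)
    (W : Finset ℕ) (a b be : ℕ → ℝ) (T : ℕ → Finset Pt) : Prop where
  good : Good P
  sub : Q ⊆ P
  box : ∀ p ∈ Q, 0 ≤ p.1 ∧ p.1 ≤ 1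
  del0 : 0 < del
  len : ∀ w ∈ W, del ≤ b w - a w ∧ b w - a w ≤ 2 * del
  unit : ∀ w ∈ W, 0 ≤ a w ∧ b w ≤ 1
  disj : ∀ w ∈ W, ∀ w' ∈ W, w ≠ w' → b w < a w' ∨ b w' < a w
  cardQ : (#Q : ℝ) ≤ N
  cardW : (#W : ℝ) ≤ K * lam ^ 2
  cardW' : lam ^ 2 ≤ K * #W
  tch : ∀ w ∈ W, lam * #(Tch P k Q (Set.Icc (a w) (b w))) ≤ K * N
  bd : ∀ w ∈ W, lam * #(EdBd P k Q (Set.Icc (a w) (b w))) ≤ K * N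
  glob : (#(EdBd P k Q Set.univ) : ℝ) ≤ K * (lam * N)
  ncT : ∀ x : ℝ, (#{w ∈ W | x ≤ a w ∧ a w ≤ x + 1 / Kpp} : ℝ) ≤ ks * lam ^ 2
  subT : ∀ w ∈ W, T w ⊆ Tch P k Q (Set.Icc (a w) (b w))
  tube : ∀ w ∈ W, ∀ p ∈ T w, be w ≤ ht (a w) p ∧ ht (a w) p ≤ be w + 2 * del
  cardT' : ∀ w ∈ W, N ≤ K * (lam * #(T w))
  edT : ∀ w ∈ W, (N / lam) ^ (4 / 3 : ℝ) ≤ K * #(ET P k Q a b T w)
  spT : ∀ w ∈ W, ∀ x : ℝ, lam * #{p ∈ T w | x ≤ p.1 ∧ p.1 ≤ x + 1 / Kp} ≤ k3 * N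
  spE : ∀ w ∈ W, ∀ x : ℝ,
    (#{e ∈ ET P k Q a b T w | x ≤ e.1.1 ∧ e.1.1 ≤ x + 1 / Kp} : ℝ) ≤
      k3 * (N / lam) ^ (4 / 3 : ℝ)

/-- **S35** (steps 3, 4, 5) -/
def StS35 : Prop :=
  ∃ r : ℕ, 1 ≤ r ∧ ∀ c : ℕ, ∃ c' : ℕ, ∀ (K kp Kp ks Kpp L lam N del : ℝ) (P : Finset Pt) (k : ℕ)
    (Q : Finset Pt) (W : Finset ℕ) (a b : ℕ → ℝ),
    Hier c' K kp Kp ks Kpp L lam N → NWin K kp Kp ks Kpp lam N del P k Q W a b →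
    ∃ (k3 : ℝ) (W' : Finset ℕ) (be : ℕ → ℝ) (T : ℕ → Finset Pt),
      0 < k3 ∧ (K ^ r) ^ c * k3 ≤ 1 ∧ 1 ≤ k3 * Kp ∧ W' ⊆ W ∧
      NW2 (K ^ r) k3 Kp ks Kpp lam N del P k Q W' a b be T

open Classical in
/-- **NW3** after steps 6, 7.  `W₀` and `T` as in `NW2`; the third point property; the smaller sets
`T' w`, `w ∈ W`, consist of points which are active and have spread windows. -/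
structure NW3 (K k3 k4 Kp ks Kpp lam N del : ℝ) (P : Finset Pt) (k : ℕ) (Q : Finset Pt)
    (W₀ W : Finset ℕ) (a b be : ℕ → ℝ) (T T' : ℕ → Finset Pt) : Prop where
  base : NW2 K k3 Kp ks Kpp lam N del P k Q W₀ a b be T
  subW : W ⊆ W₀
  cardW' : lam ^ 2 ≤ K * #W
  third : ∀ x : Pt, 0 ≤ x.1 → x.1 ≤ 1 → ∀ ρ : ℝ, 1 ≤ ρ →
    (#{w ∈ W₀ | be w - ρ * del ≤ ht (a w) x ∧ ht (a w) x ≤ be w + ρ * del} : ℝ) ≤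
      ρ * Kp ^ 2 * lam
  subT' : ∀ w ∈ W, T' w ⊆ T w
  edT' : ∀ w ∈ W, (N / lam) ^ (4 / 3 : ℝ) ≤ K * #(ET P k Q a b T' w)
  ncX : ∀ w ∈ W, ∀ q ∈ T' w, ∀ t : ℝ,
    (#{v ∈ W₀ | q ∈ T v ∧ t ≤ a v ∧ a v ≤ t + 1 / Kpp} : ℝ) ≤ k4 * lam
  act : ∀ w ∈ W, ∀ q ∈ T' w, lam ≤ K * #{v ∈ W₀ | q ∈ T v}

/-- **S67** (steps 6, 7) -/
def StS67 : Prop :=
  ∃ r : ℕ, 1 ≤ r ∧ ∀ c : ℕ, ∃ c' : ℕ, ∀ (K k3 Kp ks Kpp lam N del : ℝ) (P : Finset Pt) (k : ℕ)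
    (Q : Finset Pt) (W₀ : Finset ℕ) (a b be : ℕ → ℝ) (T : ℕ → Finset Pt),
    2 ≤ K → 0 < k3 → K ^ c' * k3 ≤ 1 → 1 ≤ k3 * Kp → 0 < ks → Kp ^ c' * ks ≤ 1 → 1 ≤ ks * Kpp →
    Kpp ^ c' ≤ lam → lam ^ 5 ≤ N →
    NW2 K k3 Kp ks Kpp lam N del P k Q W₀ a b be T →
    ∃ (k4 : ℝ) (W : Finset ℕ) (T' : ℕ → Finset Pt), 0 < k4 ∧ (K ^ r) ^ c * k4 ≤ 1 ∧
      NW3 (K ^ r) k3 k4 Kp ks Kpp lam N del P k Q W₀ W a b be T T'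

open Classical in
/-- **NW4** after step 8: a partition into cells `cell q = j ∈ J`, each inside a quadrilateral
piece `Cp j` of `Q` of diameter at most `Kpp ^ 2 * del`.  `R` = losses `Kp ^ r`. -/
structure NW4 (r : ℕ) (K k3 k4 Kp ks Kpp lam N del : ℝ) (P : Finset Pt) (k : ℕ) (Q : Finset Pt)
    (W₀ W : Finset ℕ) (a b be : ℕ → ℝ) (T T' : ℕ → Finset Pt) (J : Finset ℕ) (cell : Pt → ℕ)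
    (Cp : ℕ → Finset Pt) : Prop where
  base : NW3 K k3 k4 Kp ks Kpp lam N del P k Q W₀ W a b be T T'
  cellJ : ∀ w ∈ W, ∀ q ∈ T' w, cell q ∈ J ∧ q ∈ Cp (cell q)
  subC : ∀ j ∈ J, Cp j ⊆ Q
  cardJ : (#J : ℝ) ≤ Kp ^ r * lam ^ 2
  ovl : ∑ j ∈ J, (#(Cp j) : ℝ) ≤ Kp ^ r * N
  bdC : ∀ j ∈ J, ∀ w ∈ W, lam * #(EdBd P k (Cp j) (Set.Icc (a w) (b w))) ≤ 20 * K * N
  diam : ∀ j ∈ J, ∀ p ∈ Cp j, ∀ q ∈ Cp j,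
    |p.1 - q.1| ≤ Kpp ^ 2 * del ∧ |p.2 - q.2| ≤ Kpp ^ 2 * del
  mult : ∀ x : Pt, (#{j ∈ J | ∃ q ∈ Cp j, |q.1 - x.1| ≤ Kpp ^ 2 * del ∧
    |q.2 - x.2| ≤ Kpp ^ 2 * del} : ℝ) ≤ Kpp ^ r
  cut : ∀ w ∈ W, (#{e ∈ ET P k Q a b T' w | cell e.1 ≠ cell e.2} : ℝ) ≤ Kp ^ r * N

/-- **S8** (step 8): hitting points, sectors, priority cells -/
def StS8 : Prop :=
  ∃ r c : ℕ, ∀ (K k3 k4 Kp ks Kpp lam N del : ℝ) (P : Finset Pt) (k : ℕ)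
    (Q : Finset Pt) (W₀ W : Finset ℕ) (a b be : ℕ → ℝ) (T T' : ℕ → Finset Pt),
    2 ≤ K → K ^ c * k3 ≤ 1 → K ^ c * k4 ≤ 1 → 1 ≤ k3 * Kp → K ^ c ≤ Kp → 0 < ks →
    Kp ^ c * ks ≤ 1 → 1 ≤ ks * Kpp → Kpp ^ c ≤ lam → lam ^ 5 ≤ N → Real.log N ≤ Kp →
    NW3 K k3 k4 Kp ks Kpp lam N del P k Q W₀ W a b be T T' →
    ∃ (J : Finset ℕ) (cell : Pt → ℕ) (Cp : ℕ → Finset Pt),
      NW4 r K k3 k4 Kp ks Kpp lam N del P k Q W₀ W a b be T T' J cell Cp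

open Classical in
/-- **STRUCT**: the discretised plane of order `lam` at resolution `del`.  `Y` points, `Z` windows
`(slope, intercept)`, `F` flags `(y, z)`. -/
structure Struct (C0 : ℕ) (K L lam N del : ℝ) (Y Z : Finset Pt) (F : Finset (Pt × Pt))
    (Q : Finset Pt) : Prop where
  hK : 2 ≤ K
  KL : K ^ C0 ≤ L
  del0 : 0 < del
  dim : lam ^ 2 * del ≤ L
  boxY : ∀ y ∈ Y, 0 ≤ y.1 ∧ y.1 ≤ 1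
  boxZ : ∀ z ∈ Z, 0 ≤ z.1 ∧ z.1 ≤ 1
  inc : ∀ f ∈ F, f.1 ∈ Y ∧ f.2 ∈ Z ∧ |f.1.2 - f.2.1 * f.1.1 - f.2.2| ≤ del
  Y1 : lam ^ 2 ≤ L * #Y
  Y2 : (#Y : ℝ) ≤ L * lam ^ 2
  Z1 : lam ^ 2 ≤ L * #Z
  Z2 : (#Z : ℝ) ≤ L * lam ^ 2
  F1 : lam ^ 3 ≤ L * #F
  F2 : (#F : ℝ) ≤ L * lam ^ 3
  degY : ∀ y ∈ Y, ((#{f ∈ F | f.1 = y} : ℝ)) * #Y ≤ K * #F
  degZ : ∀ z ∈ Z, ((#{f ∈ F | f.2 = z} : ℝ)) * #Z ≤ K * #F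
  sepY : ∀ x : Pt, (#{y ∈ Y | |y.1 - x.1| ≤ del ∧ |y.2 - x.2| ≤ del} : ℝ) ≤ L
  sepZ : ∀ t : ℝ, (#{z ∈ Z | |z.1 - t| ≤ del} : ℝ) ≤ L
  ncY : ∀ z ∈ Z, ∀ x : ℝ, K ^ C0 * ((#{f ∈ F | f.2 = z ∧ |f.1.1 - x| ≤ 1 / L} : ℝ) * #Z) ≤ #F
  ncZ : ∀ y ∈ Y, ∀ t : ℝ, K ^ C0 * ((#{f ∈ F | f.1 = y ∧ |f.2.1 - t| ≤ 1 / L} : ℝ) * #Y) ≤ #F
  cardQ : (#Q : ℝ) ≤ N
  seg : ∀ a0 b0 h u1 u2 : ℝ, 0 ≤ a0 → a0 ≤ 1 → del ≤ h →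
    (∑ z ∈ Z, ((#{f ∈ F | f.2 = z ∧ u1 ≤ f.1.1 ∧ f.1.1 ≤ u2 ∧
      |f.1.2 - a0 * f.1.1 - b0| ≤ h} : ℝ)) ^ 3) * N ^ 2 ≤
    L * lam ^ 5 * ((#{q ∈ Q | u1 - del ≤ q.1 ∧ q.1 ≤ u2 + del ∧
      |q.2 - a0 * q.1 - b0| ≤ L * h} : ℝ)) ^ 2

/-- **S9** (step 9): dyadic classes and assembly -/
def StS9 : Prop :=
  ∀ r : ℕ, ∃ s : ℕ, ∀ C0 : ℕ, ∃ c : ℕ, ∀ (K k3 k4 Kp ks Kpp L lam N del : ℝ) (P : Finset Pt)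
    (k : ℕ) (Q : Finset Pt) (W₀ W : Finset ℕ) (a b be : ℕ → ℝ) (T T' : ℕ → Finset Pt)
    (J : Finset ℕ) (cell : Pt → ℕ) (Cp : ℕ → Finset Pt),
    2 ≤ K → K ^ c * k3 ≤ 1 → K ^ c * k4 ≤ 1 → 1 ≤ k3 * Kp → K ^ c ≤ Kp → 0 < ks →
    Kp ^ c * ks ≤ 1 → 1 ≤ ks * Kpp → Kpp ^ c ≤ L → L ^ c ≤ lam → lam ^ 5 ≤ N →
    Real.log N ≤ K →
    NW4 r K k3 k4 Kp ks Kpp lam N del P k Q W₀ W a b be T T' J cell Cp →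
    ∃ (Y Z : Finset Pt) (F : Finset (Pt × Pt)),
      Struct C0 (K ^ s) L lam N (Kpp ^ s * del) Y Z F Q

/-- **P2**: no such plane when `1 / del` is at most a power of `lam` -/
def StP2 : Prop :=
  ∀ q : ℕ, ∃ C0 r : ℕ, ∀ (K L lam N del : ℝ) (Y Z : Finset Pt) (F : Finset (Pt × Pt))
    (Q : Finset Pt), Struct C0 K L lam N del Y Z F Q → L ^ r ≤ lam → 1 ≤ del * lam ^ q →
    (r : ℝ) ≤ lam → False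

/-- the result of line P: a power saving for point sets with integer coordinates at most
`n ^ A` -/
def StPoly : Prop :=
  ∀ A : ℕ, ∃ ε : ℝ, 0 < ε ∧ ∃ n₀ : ℕ, ∀ (P : Finset Pt) (k : ℕ), Good P →
    (∀ p ∈ P, ∃ x y : ℤ, p = ((x : ℝ), (y : ℝ)) ∧ |x| ≤ (#P : ℤ) ^ A ∧ |y| ≤ (#P : ℤ) ^ A) →
    n₀ ≤ #P → (#(Ed P k) : ℝ) < (#P : ℝ) ^ (4 / 3 - ε)

end Vale.Agent.P065.UB.P
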