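import Vale.Agent.P065.UB.P.Defs
import Vale.Agent.P065.U.H792.Trans

/-!
# P065, upper bound, line P: from `StPoly` to halving lines and `k`-sets of integer point sets
(helper728)
-/

set_option autoImplicit false

namespace Vale.Agent.P065.UB.P

open Finset Vale.Agent.P065 Vale.Agent.P065.U.H792.Trans

/-- all coordinates of the points of `P` are integers of absolute value at most `|P| ^ A` -/
def IntBdd (A : ℕ) (P : Finset (ℝ × ℝ)) : Prop :=
  ∀ p ∈ P, ∃ x y : ℤ, p = ((x : ℝ), (y : ℝ)) ∧ |x| ≤ (#P : ℤ) ^ A ∧ |y| ≤ (#P : ℤ) ^ A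

/-- an integer shear makes all abscissas distinct -/
theorem int_shear {A : ℕ} {P : Finset (ℝ × ℝ)} [DecidableEq Pt] (h : IntBdd A P) (hn : 4 ≤ #P) :
    ∃ ε : ℝ, (∀ p ∈ P, ∀ q ∈ P, p ≠ q → (sh ε p).1 ≠ (sh ε q).1) ∧
      IntBdd (2 * A + 2) (P.image (sh ε)) := by
  refine ⟨((2 * (#P : ℤ) ^ A + 1 : ℤ) : ℝ), ?_, ?_⟩
  · intro p hp q hq hpq heq
    obtain ⟨x, y, rfl, hx, hy⟩ := h p hp
    obtain ⟨x', y', rfl, hx', hy'⟩ := h q hq
    unfold sh at heq
    simp only at heq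
    have e : x + (2 * (#P : ℤ) ^ A + 1) * y = x' + (2 * (#P : ℤ) ^ A + 1) * y' := by
      exact_mod_cast heq
    have hne : y = y' := by
      by_contra hne
      have h1 : 1 ≤ |y - y'| := Int.one_le_abs (sub_ne_zero.mpr hne)
      have h2 : x' - x = (2 * (#P : ℤ) ^ A + 1) * (y - y') := by linarith
      have h3 : |x' - x| = (2 * (#P : ℤ) ^ A + 1) * |y - y'| := by
        rw [h2, abs_mul, abs_of_pos (by positivity)]
      have h4 : |x' - x| ≤ |x'| + |x| := abs_sub _ _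
      have h5 : 0 ≤ (#P : ℤ) ^ A := by positivity
      nlinarith
    subst hne
    apply hpq
    have : x = x' := by linarith
    rw [this]
  · intro p hp
    obtain ⟨p0, hp0, rfl⟩ := mem_image.mp hp
    obtain ⟨x, y, rfl, hx, hy⟩ := h p0 hp0
    rw [card_image_sh]
    refine ⟨x + (2 * (#P : ℤ) ^ A + 1) * y, y, ?_, ?_, ?_⟩
    · unfold sh
      simp
    · have hP1 : (4 : ℤ) ≤ #P := by exact_mod_cast hn
      have h5 : 1 ≤ (#P : ℤ) ^ A := one_le_pow₀ (by linarith)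
      have h1 : |x + (2 * (#P : ℤ) ^ A + 1) * y| ≤ |x| + (2 * (#P : ℤ) ^ A + 1) * |y| := by
        refine (abs_add_le _ _).trans ?_
        rw [abs_mul, abs_of_pos (by positivity : (0 : ℤ) < 2 * (#P : ℤ) ^ A + 1)]
      have h2 : |x| + (2 * (#P : ℤ) ^ A + 1) * |y| ≤ 4 * ((#P : ℤ) ^ A) ^ 2 := by nlinarith
      have h3 : 4 * ((#P : ℤ) ^ A) ^ 2 ≤ (#P : ℤ) ^ (2 * A + 2) := by
        have : (#P : ℤ) ^ (2 * A + 2) = ((#P : ℤ) ^ A) ^ 2 * (#P : ℤ) ^ 2 := by
          rw [← pow_mul, ← pow_add]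
          ring_nf
        rw [this]
        have h6 : (4 : ℤ) ≤ (#P : ℤ) ^ 2 := by nlinarith
        have h7 := mul_le_mul_of_nonneg_left h6 (sq_nonneg ((#P : ℤ) ^ A))
        linarith
      linarith
    · refine hy.trans ?_
      apply pow_le_pow_right₀
      · have : (4 : ℤ) ≤ #P := by exact_mod_cast hn
        linarith
      · omega

/-- **the result of line P** in terms of halving lines and `k`-sets -/
theorem poly_bound (h : StPoly) : ∀ A : ℕ, ∃ c : ℝ, 0 < c ∧ ∃ n₀ : ℕ, ∀ P : Finset (ℝ × ℝ),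
    GenPos P → IntBdd A P → n₀ ≤ #P →
    (halvingNumber P : ℝ) ≤ (#P : ℝ) ^ (4 / 3 - c) ∧
    ∀ k : ℕ, 1 ≤ k → k + 1 ≤ #P → (kSetNumber P k : ℝ) ≤ (#P : ℝ) ^ (4 / 3 - c) := by
  classical
  intro A
  obtain ⟨ε, hε, n₀, H⟩ := h (2 * A + 2)
  -- we may take `ε ≤ 1`
  set c : ℝ := min (ε / 2) (1 / 3) with hc
  have hc0 : 0 < c := lt_min (by linarith) (by norm_num)
  have hcε : c ≤ ε / 2 := min_le_left _ _
  have hc1 : c ≤ 1 / 3 := min_le_right _ _
  obtain ⟨n₁, hn₁⟩ := exists_nat_ge ((4 : ℝ) ^ (1 / c))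
  refine ⟨c, hc0, max n₀ (max n₁ 4), fun P hg hI hn => ?_⟩
  have hn0 : n₀ ≤ #P := (le_max_left _ _).trans hn
  have hn1 : n₁ ≤ #P := (le_max_left _ _).trans ((le_max_right _ _).trans hn)
  have hn4 : 4 ≤ #P := (le_max_right _ _).trans ((le_max_right _ _).trans hn)
  obtain ⟨s, hs1, hs2⟩ := int_shear hI hn4
  have h1 := good_shear hg hs1
  have hcard : #(P.image (sh s)) = #P := card_image_sh s P
  have hnR : (4 : ℝ) ≤ #P := by exact_mod_cast hn4
  have hn1R : (1 : ℝ) ≤ #P := by linarith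
  have hbig : (4 : ℝ) ≤ (#P : ℝ) ^ c := by
    have h2 : (4 : ℝ) ^ (1 / c) ≤ #P := hn₁.trans (by exact_mod_cast hn1)
    calc (4 : ℝ) = ((4 : ℝ) ^ (1 / c)) ^ c := by
          rw [← Real.rpow_mul (by norm_num)]
          field_simp
          norm_num
      _ ≤ (#P : ℝ) ^ c := Real.rpow_le_rpow (by positivity) h2 hc0.le
  have key : ∀ k : ℕ, (#(Ed (P.image (sh s)) k) : ℝ) ≤ (#P : ℝ) ^ (4 / 3 - 2 * c) := by
    intro k
    have h2 := H (P.image (sh s)) k h1 hs2 (by rw [hcard]; exact hn0)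
    rw [hcard] at h2
    exact h2.le.trans (Real.rpow_le_rpow_of_exponent_le hn1R (by linarith))
  have hsplit : (#P : ℝ) ^ (4 / 3 - c) = (#P : ℝ) ^ (4 / 3 - 2 * c) * (#P : ℝ) ^ c := by
    rw [← Real.rpow_add (by linarith)]
    congr 1
    ring
  have hX1 : (1 : ℝ) ≤ (#P : ℝ) ^ (4 / 3 - c) := Real.one_le_rpow hn1R (by linarith)
  have hX0 : (0 : ℝ) ≤ (#P : ℝ) ^ (4 / 3 - 2 * c) := by positivity
  constructor
  · have h2 := halvingNumber_shear (P := P) s
    have h3 := halvingNumber_le h1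
    have h4 : (halvingNumber P : ℝ) ≤
        #(Ed (P.image (sh s)) ((#(P.image (sh s)) - 2) / 2)) := by
      exact_mod_cast h2.trans h3
    refine h4.trans ((key _).trans ?_)
    rw [hsplit]
    nlinarith
  · intro k hk hkn
    obtain ⟨j, rfl⟩ : ∃ j, k = j + 1 := ⟨k - 1, by omega⟩
    have h2 := kSetNumber_shear (P := P) s (j + 1)
    have h3 := kSetNumber_le h1 (k := j) (by rw [hcard]; omega)
    have h4 : (kSetNumber P (j + 1) : ℝ) ≤ #(Ed (P.image (sh s)) j) +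
        #(Ed (P.image (sh s)) (#(P.image (sh s)) - j - 2)) + 2 := by
      exact_mod_cast h2.trans h3
    have h5 := key j
    have h6 := key (#(P.image (sh s)) - j - 2)
    have h7 : 4 * (#P : ℝ) ^ (4 / 3 - 2 * c) ≤ (#P : ℝ) ^ (4 / 3 - c) := by
      rw [hsplit]
      nlinarith
    have h8 : (4 : ℝ) ≤ (#P : ℝ) ^ (4 / 3 - c) := by
      calc (4 : ℝ) ≤ #P := hnR
        _ = (#P : ℝ) ^ (1 : ℝ) := (Real.rpow_one _).symm
        _ ≤ _ := Real.rpow_le_rpow_of_exponent_le hn1R (by linarith)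
    linarith

end Vale.Agent.P065.UB.P
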