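import Vale.Agent.P065.UB.H602.AsmP4
import Vale.Agent.P065.H626.U2Final

/-!
# P065, upper bound, line P: the final form (helper728)
-/

set_option autoImplicit false

namespace Vale.Agent.P065.UB.P

open Finset Vale.Agent.P065 Vale.Agent.P065.UB.H759

/-- **the result of line P** -/
theorem poly_main (A : ℕ) : ∃ c C : ℝ, 0 < c ∧ ∀ P : Finset (ℝ × ℝ), GenPos P →
    (∀ p ∈ P, ∃ x y : ℤ, p = ((x : ℝ), (y : ℝ)) ∧ |x| ≤ (P.card : ℤ) ^ A ∧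
      |y| ≤ (P.card : ℤ) ^ A) →
    (halvingNumber P : ℝ) ≤ C * (P.card : ℝ) ^ (4 / 3 - c) ∧
    ∀ k : ℕ, 1 ≤ k → k + 1 ≤ P.card →
      (kSetNumber P k : ℝ) ≤ C * (P.card : ℝ) ^ (4 / 3 - c) :=
  H602.poly_final1 Vale.Agent.P065.H626.U2.stU2 A

end Vale.Agent.P065.UB.P
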